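import Vale.Agent.P283R.Rs.Wr90

/-!
# P283R, block RS: triviality over the base descends
-/

set_option linter.all false

open Set CategoryTheory AlgebraicGeometry
open Vale.Agent.P289 Vale.Agent.P289.H219 Vale.Agent.P270L Vale.Agent.P283M.Am Vale.Agent.P299.G

noncomputable section

namespace Vale.Agent.P283R.Rs.T55

open Vale.Agent.P287D Vale.Agent.P283M Vale.Agent.P283M.Br Vale.Agent.P283M.Stm.Var
open Vale.Agent.P283M.Stm (Contraction)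
open Vale.Agent.P297Z Vale.Agent.P283R.Br
open Vale.Agent.P283R.Et (Pe)
open Cf (Triv Pull)

variable {X Y W : Stm.Var} {g : X.X ⟶ Y.X} {h : Y.X ⟶ W.X} {p : Y.K →+* X.K}

theorem up {D : X.PrimeDiv → ℚ} (t : Triv (g ≫ h) D) : Triv g D := fun y =>
  let ⟨m, a, m0, k⟩ := t (y.map h)
  ⟨m, a, m0, fun x e => k x (e ▸ rfl)⟩

theorem down (hg : Contraction g) (hp : Pe g p) {d : ℕ} {ω : DForm ℂ X.K d} (d1 : 1 ≤ d)
    (hd : dimension X.str = d) (ω0 : ω.Nonzero) {B : X.QDiv} {D : Y.PrimeDiv → ℚ}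
    (hc : ∀ y, ∃ m c, 0 < m ∧ LocalEq D m c y) (pl : Pull g p (logCan ω B) D)
    (t : Triv (g ≫ h) (logCan ω B)) : Triv h D := by
  intro w
  by_cases ne : ∃ y₀ : Pt Y.X, y₀.map h = w
  swap
  · exact ⟨1, 1, one_pos, fun y e => (ne ⟨y, e⟩).elim⟩
  obtain ⟨y₀, e₀⟩ := ne
  obtain ⟨n, rfl⟩ := Nat.exists_eq_add_of_le' d1
  have hK := ffd X _ hd
  obtain ⟨j, -, fr⟩ := frm X _ hK ω ω0
  have := hg.2.1
  obtain ⟨m, a, m0, ha⟩ := t w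
  obtain ⟨M, θ, M0, θ0, hθ⟩ := pl
  obtain ⟨m₀, c₀, n0, h₀⟩ := hc y₀
  have p0 : ∀ {f}, f ≠ 0 → p f ≠ 0 := fun k => (map_ne_zero p).2 k
  obtain ⟨x₀, ex⟩ := hg.2.2.1.surj y₀
  have a0 : a ≠ 0 := (ha x₀ (by rw [← e₀, ← ex]; rfl)).1
  have b0 : θ ^ m₀ * p c₀ ^ M ≠ 0 := mul_ne_zero (pow_ne_zero _ θ0) (pow_ne_zero _ (p0 h₀.1))
  have o := (g.isClosedMap _ ((open_localEq hK fr B m a).inter
    (open_localEq hK fr B (M * m₀) (θ ^ m₀ * p c₀ ^ M))).isClosed_compl).isOpen_compl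
  obtain ⟨c₁, h₁⟩ := Cf.Cht.down hg hp (V := ⟨_, o⟩) (y := y₀)
    (fun ⟨(x : Pt X.X), b, c⟩ => b ⟨ha x (by rw [← e₀, ← c]; rfl), hθ x _ _ ((show x.map g = y₀ from c) ▸ h₀)⟩)
    (u := a ^ (M * m₀) / (θ ^ m₀ * p c₀ ^ M) ^ m) fun x hx => loc_of_od (nrm X) fun _ E b c => by
      obtain ⟨k₁, k₂⟩ : LocalEq (logCan ω B) m a x ∧
        LocalEq (logCan ω B) (M * m₀) (θ ^ m₀ * p c₀ ^ M) x := by_contra fun k => hx ⟨x, k, rfl⟩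
      have e1 : od a E = _ := k₁.2 ⟨E, b⟩ c
      have e2 : od (θ ^ m₀ * p c₀ ^ M) E = _ := k₂.2 ⟨E, b⟩ c
      rw [od_div (pow_ne_zero _ a0) (pow_ne_zero _ b0), od_pow a0, od_pow b0, e1, e2]
      exact le_of_eq (by push_cast; ring)
  have c1 : c₁ ≠ 0 := fun e => div_ne_zero (pow_ne_zero _ a0) (pow_ne_zero _ b0)
    (by rw [← h₁, e, map_zero])
  have z0 := mul_ne_zero c1 (pow_ne_zero (M * m) h₀.1)
  have hb : p (c₁ * c₀ ^ (M * m)) = a ^ (M * m₀) / θ ^ (m₀ * m) := by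
    have := p0 h₀.1
    rw [map_mul, map_pow, h₁]
    field_simp
    ring
  refine ⟨M * m₀ * m, c₁ * c₀ ^ (M * m), by positivity, fun y e => ⟨z0, fun F s => ?_⟩⟩
  obtain ⟨Q, q, oq⟩ := pl_of plc F
  obtain ⟨P, ⟨E, hE⟩, l⟩ := (Cf.prm X Y g p hg hp).1 Q ⟨F, q.dom⟩
  have eF : E.1.map g = F.1 := Cf.Dw.uq ((Cf.prm X Y g p hg hp).2 P E.1 hE Q l) q.dom
  obtain ⟨x, sx, gx⟩ := g.isClosedMap.specializingMap (a := E.1) (b := y)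
    (show E.1.map g ⤳ y from eF ▸ s)
  have k₁ := (ha x (by rw [← e, ← gx]; rfl)).2 E sx
  obtain ⟨m', c, m1, hF⟩ := hc F.1
  have k₂ := (hθ E.1 _ _ (eF ▸ hF)).2 E specializes_rfl
  have k₃ := hF.2 F specializes_rfl
  have oE := (Cf.Dw.at_pl fr hE).1
  have k₄ := l.ord (c₁ * c₀ ^ (M * m))
  have ep : (P.ord (p Q.t) : ℚ) ≠ 0 := by exact_mod_cast l.e_pos.ne'
  have mp : (m' : ℚ) ≠ 0 := by exact_mod_cast m1.ne'
  rw [hb, Pl.ord_div _ (pow_ne_zero _ a0) (pow_ne_zero _ θ0), Pl.ord_pow, Pl.ord_pow] at k₄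
  rw [oE, Pl.ord_mul _ (pow_ne_zero _ θ0) (pow_ne_zero _ (p0 hF.1)), Pl.ord_pow, Pl.ord_pow,
    l.ord, ← oq] at k₂
  rw [oE] at k₁
  rw [oq]
  have k₅ := congrArg (Int.cast : ℤ → ℚ) k₄
  push_cast at k₂ k₅ ⊢
  rw [k₃] at k₂
  refine mul_left_cancel₀ ep (mul_left_cancel₀ mp ?_)
  rw [← k₅, k₁]
  linear_combination (-(m₀ * m : ℚ)) * k₂

end Vale.Agent.P283R.Rs.T55
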