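import Vale.Agent.P283R.Rs.St

/-!
# P283R, block RS: the exceptional places are controlled (row `EXC`)
-/

set_option linter.all false

open Set CategoryTheory AlgebraicGeometry
open Vale.Agent.P289 Vale.Agent.P289.H219 Vale.Agent.P270L Vale.Agent.P283M.Am Vale.Agent.P299.G

noncomputable section

namespace Vale.Agent.P283R.Rs

open Vale.Agent.P287D Vale.Agent.P283M Vale.Agent.P283M.Br Vale.Agent.P283M.Stm.Var
open Vale.Agent.P297Z Vale.Agent.P283R.Br
open Vale.Agent.P283R.Et (Pe)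

theorem exc14 : EXC := fun X Y g p n J ω j x P hp hd _ fr j0 dx gx cl ⟨m', a', m0', l', le'⟩ => by
  let _ := p.toAlgebra
  have rg : ∀ a : Y.K, RegAt (p a) x := fun a => hp.reg (by
    rw [gx]
    exact ⟨a, by
      change (Y.X.presheaf.stalkSpecializes _).hom a = a
      rw [TopCat.Presheaf.stalkSpecializes_refl]
      rfl⟩)
  refine ⟨fun a => (dx _ (rg a)).1, fun y m q h fy m0 h0 H => ?_⟩
  obtain ⟨f, f0, e⟩ := Cb.kap_cn (ffd X _ hd) fy.ind
  have m1 : (0 : ℝ) < m := Nat.cast_pos.2 m0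
  have b0 := div_ne_zero j0 f0
  have a0 : h * (j / f) ^ m ≠ 0 := mul_ne_zero h0 (pow_ne_zero _ b0)
  have ev : ∀ Q : Pl X.K, ld y m h Q =
      1 + (cn X.K n Q + Q.ord j) - Q.ord (h * (j / f) ^ m) / m := fun Q => by
    rw [ld, e, Pi.add_apply, dv_apply, Pl.ord_mul _ h0 (pow_ne_zero _ b0), Pl.ord_pow,
      Pl.ord_div _ j0 f0]
    push_cast
    field_simp
    ring
  generalize h * (j / f) ^ m = a at a0 ev
  have key : ∀ F : X.PrimeDiv, F.1 ⤳ x → (logCan ω 0 F ≤ ord a F / m) ∧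
      ∃ z : ℤ, q * ord a F = m * z := fun F s => by
    obtain ⟨Q, is, o⟩ := pl_of plc F
    obtain ⟨k1, z, k2⟩ := H Q ⟨F, is.dom⟩ fun b => (is.dom _ (reg_gen s (rg b))).1
    rw [ev, ← fr _ _ F Q is o, ← o] at k1 k2
    refine ⟨?_, q * (1 + formOrd ω (RingEquiv.refl X.K) F) - z, ?_⟩
    · rw [logCan, Finsupp.coe_zero, Pi.zero_apply, add_zero, ← Rat.cast_le (K := ℝ)]
      push_cast
      linarith
    · rw [← Int.cast_inj (α := ℝ)]
      push_cast
      rw [← k2]
      field_simp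
      ring
  choose! k1 D k2 using key
  have la : LocalEq (fun F => (ord a F : ℚ) / m) m a x := ⟨a0, fun F _ => by
    rw [mul_div_cancel₀ _ (Nat.cast_ne_zero.2 m0.ne')]⟩
  have lq : LocalEq (fun F => (D F : ℚ)) m (a ^ q) x := ⟨pow_ne_zero _ a0, fun F s => by
    rw [Eb.ord_pow', k2 F s]
    push_cast
    rfl⟩
  obtain ⟨b, lb⟩ := cl D m _ m0 lq
  have u := loc_uniq har plc lq lb dx
  have v := Cf.Dw.pull_le (Ft.B11.pe_id X) (x := x) l' la k1 dx
  rw [RingHom.id_apply, RingHom.id_apply] at v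
  have m2 : (0 : ℝ) < m' := Nat.cast_pos.2 m0'
  obtain ⟨z, hz⟩ := Cb.kap_int y P
  refine ⟨?_, q * J.factorial * (1 + z + P.ord j - P.ord f) - P.ord b, ?_⟩
  · rw [ev, sub_le_iff_le_add, add_le_add_iff_left, le_div_iff₀ m1]
    nlinarith
  · rw [e, Pi.add_apply, dv_apply] at hz
    rw [Pl.ord_pow] at u
    rw [ev]
    push_cast at u ⊢
    rw [← hz]
    field_simp
    linear_combination -u

end Vale.Agent.P283R.Rs
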