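import Vale.Agent.P283R.Rs.St

/-!
# P283R, block RS: the controlled places are dropped
-/

open Set

noncomputable section

namespace Vale.Agent.P283R.Rs

open Vale.Agent.P287D Vale.Agent.P297Z
open Cf (aj dn)

/-- **GEX** -/
theorem gex15 : GEX := by
  intro k K _ _ _ _ _ _ d n q J q' M ε ε' T T' le ex go k₀ ι _ _ _ φ v c μ y x m h hy hx m0 h0 st
  have tr : ∀ P : Pl K, Trv (algebraMap k K) P → ∀ j,
      (∀ a ∈ v j, (algebraMap k K).comp φ a ∈ P.ring) ∧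
      aj x m h ((algebraMap k K).comp φ (c j)) (μ j) P = ld x m h P := fun P t j => ⟨fun a _ => t _, by
    have : P.ord (algebraMap k K (φ (c j))) = 0 :=
      Pl.ord_unit _ (t _) (by rw [← map_inv₀]; exact t _)
    simp [aj, this]⟩
  obtain ⟨m₀, h₀, θ, a1, a2, a3, a4, a5⟩ := go k₀ ι φ v c μ y x m h hy hx m0 h0 fun j P hP =>
    ⟨(st j P hP).1, fun p => (ex P p).elim (fun t =>
      let ⟨b, z, e⟩ := (st j P hP).2 t
      ⟨b, z * J.factorial, by rw [Nat.cast_mul, mul_right_comm, e]; simp⟩) fun e => by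
        rw [(tr P e.1 j).2]
        exact e.2 x m q h hx m0 h0 fun P' t u => (tr P' u j).2 ▸ (st j P' (tr P' u j).1).2 t⟩
  exact ⟨m₀, h₀, θ, a1, a2, a3, fun j w hw => ⟨(a4 j w hw).1, fun ⟨P, p, l⟩ =>
    (a4 j w hw).2 ⟨P, le p, l⟩⟩, a5⟩

end Vale.Agent.P283R.Rs
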