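import Vale.Agent.P283R.Rs.St
import Vale.Agent.P283R.Dn.Goa79
import Vale.Agent.P283R.Dn.Str96

/-!
# P283R, block RS: resolutions of the generic fibre (row `RER`)
-/

open Set CategoryTheory AlgebraicGeometry

noncomputable section

namespace Vale.Agent.P283R.Rs

open Vale.Agent.P287D
open Cf (Go Pri dn)

section

open Vale.Agent.P289 (Pt DForm dimension)
open Vale.Agent.P283M Vale.Agent.P283M.Stm Vale.Agent.P283M.Stm.Var
open Vale.Agent.P283M.Br (Dom Is plc frm ffd pl_of)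
open Vale.Agent.P283R.Et (Pe)

variable {X' X Y : Var} {ρ : X'.X ⟶ X.X} {g : X.X ⟶ Y.X} {ι : X.K ≃+* X'.K} {p : Y.K →+* X.K}
  {p' : Y.K →+* X'.K}

theorem R55.sq (pe : Pe ρ (ι : X.K →+* X'.K)) (hp : Pe g p) (hp' : Pe (ρ ≫ g) p')
    (he : ρ ≫ X.str = X'.str) :
    letI := p.toAlgebra; letI := p'.toAlgebra; letI := (ι : X.K →+* X'.K).toAlgebra
    Dn.Sqr 1 Y.K Y.K (dn X.K (Pri X')) (Pri X') := by
  have h : Semi (ι : X.K →+* X'.K) :=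
    ⟨ι.surjective, fun c => ⟨c, (pe.cst he c).symm⟩, fun c => ⟨c, pe.cst he c⟩⟩
  have sq : (ι : X.K →+* X'.K).comp p = p' := Dp.pe_uniq88 (Ft.G58.pe_comp pe hp) hp'
  let _ := p.toAlgebra
  let _ := p'.toAlgebra
  let _ := (ι : X.K →+* X'.K).toAlgebra
  have sb : Submodule.span X.K (range fun _ : Fin 1 => (1 : X'.K)) = ⊤ := eq_top_iff.2 fun a _ => by
    obtain ⟨c, rfl⟩ := ι.surjective a
    have := Submodule.smul_mem _ c (Submodule.subset_span (R := X.K)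
      (s := range fun _ : Fin 1 => (1 : X'.K)) ⟨0, rfl⟩)
    rwa [Algebra.smul_def, mul_one] at this
  refine ⟨fun a => (DFunLike.congr_fun sq a).symm, inferInstance,
    Module.Finite.of_fg_top (sb ▸ Submodule.fg_span (finite_range _)), (Module.finrank_self _).le,
    (finrank_le_of_span_eq_top sb).trans_eq (Fintype.card_fin 1), fun P' hP => ?_⟩
  obtain ⟨P, rfl⟩ := h.pl.surjective P'
  exact ⟨P, ⟨_, hP, fun _ => h.mem_pl.symm⟩, fun _ => h.mem_pl.symm,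
    (h.ord_pl P _).trans P.ord_t⟩

theorem R55.ex (exc : EXC) {n J : ℕ} {ω : DForm ℂ X.K n} (c : Contraction ρ)
    (pe : Pe ρ (ι : X.K →+* X'.K)) (hp : Pe g p) (hd : dimension X.str = n) (n1 : 1 ≤ n)
    (ω0 : ω.Nonzero)
    (ex : ∀ E : X'.PrimeDiv, (E.1.map ρ).CodimOne ∨ (E.1.map ρ).map g = genericPoint Y.X ∧
      (∀ (D : X.PrimeDiv → ℤ) m a, 0 < m → LocalEq (fun F => D F) m a (E.1.map ρ) →
        ∃ b, LocalEq (fun F => D F) J.factorial b (E.1.map ρ)) ∧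
      ∃ m a, 0 < m ∧ LocalEq (logCan ω 0) m a (E.1.map ρ) ∧ m * formOrd ω ι E ≤ ord (ι a) E) :
    letI := p.toAlgebra; letI := (ι : X.K →+* X'.K).toAlgebra
    ∀ P ∈ dn X.K (Pri X'), P ∈ Pri X ∨ Ex Y.K n J (Pri X) P := by
  intro P ⟨P', ⟨E, hE⟩, l⟩
  have dm : Dom P.ring (E.1.map ρ) := (Cf.prm X' X ρ _ c pe).2 P' E.1 hE P l
  rcases ex E with a | ⟨a, b, m, u, m0, e, le⟩
  · exact .inl ⟨⟨_, a⟩, dm⟩
  obtain ⟨j, j0, fr⟩ := frm X _ (ffd X _ hd) ω ω0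
  obtain ⟨Q, q, -⟩ := pl_of plc E
  obtain rfl := Br.pl_eq q hE
  have i : Is ι E P := fun f => (l f).trans (q _)
  have o := (plc X X' ι (pe.cst c.1) E).2 P i
  refine .inr (exc X Y g p n J ω j _ P hp hd n1 fr j0 dm a b ⟨m, u, m0, e, ?_⟩)
  rw [← fr X' ι E P i o, ← o]
  exact_mod_cast le

end

open Sl Sl.Var P283M.Br in
/-- **RER** -/
theorem rer55 : RER := by
  intro gex exc J T gw d e q ε q0 ε0
  have q1 : 0 < q * (J d).factorial := Nat.mul_pos q0 (Nat.factorial_pos _)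
  obtain ⟨q₁, M₁, ε₁, a₁, b₁, c₁, H⟩ := gw d e _ ε q1 ε0
  obtain ⟨q', M, ε', a, b, c, G⟩ := Dn.goa79 1 _ q₁ M₁ ε ε₁ q1 a₁ b₁ ε0 c₁
  refine ⟨q', M, ε', a, b, c, fun X Y g ω ⟨cg, X', ρ, ι, η, cρ, hι, η0, ft, t, ex⟩ =>
    ⟨cg, fun W h p s hd he e1 ω0 _ hp => ?_⟩⟩
  obtain ⟨c', H'⟩ := H X' Y (ρ ≫ g) η t
  have hd' : dimension X'.str = d := (dim_pull cρ hι).symm.trans hd
  have := c'.2.2.1
  obtain ⟨p', h'⟩ := Cf.Fto.exists_pe (X := X'.o) (Y := Y.o) (ρ ≫ g)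
  have go := H' Y (𝟙 _) p' inferInstance hd' he e1 η0 ((Category.comp_id (ρ ≫ g)).symm ▸ ft) h'
  obtain ⟨r, rfl⟩ := Nat.exists_eq_add_of_le (cg.dim_le hd he)
  have pe : Et.Pe (W := X'.o) (Z := X.o) ρ (ι : X.K →+* X'.K) := hι
  let _ := p.toAlgebra
  let _ := p'.toAlgebra
  let _ := (ι : X.K →+* X'.K).toAlgebra
  have : IsScalarTower ℂ Y.o.K X.o.K := .of_algebraMap_eq fun c => (hp.cst cg.1 c).symm
  have : IsScalarTower ℂ X.o.K X'.o.K := .of_algebraMap_eq fun x => (pe.cst cρ.1 x).symm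
  have : IsScalarTower ℂ Y.o.K X'.o.K := .of_algebraMap_eq fun x => (h'.cst c'.1 x).symm
  exact gex Y.o.K X.o.K e (e + r) q (J (e + r)) q' M ε ε' _ _
    (Cf.prm X'.o X.o ρ _ cρ pe).1
    (R55.ex (X := X.o) (X' := X'.o) (Y := Y.o) exc cρ pe hp hd (by omega) ω0 ex)
    (G Y.o.K X.o.K Y.o.K X'.o.K _ _ e r e1 (ffd Y.o e he) (ffd X.o _ hd)
      (Cf.Fto.acl (X := X.o) (Y := Y.o) cg hp)
      (R55.sq (X := X.o) (X' := X'.o) (Y := Y.o) pe hp h' cρ.1) go)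

end Vale.Agent.P283R.Rs
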