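import Vale.Agent.P283R.Rs.St
import Vale.Agent.P283R.Dn.St

/-!
# P283R, block RS: nested towers
-/

noncomputable section

namespace Vale.Agent.P283R.Rs

/-- the state descends along nested towers -/
theorem gw_steps (tgn : Dn.TGN) (stg : Dn.STG) (J : ℕ → ℕ) :
    Gw fun d _ _ g _ => Sl.Steps (J d) g := fun d e q ε q0 e0 => by
  obtain ⟨q', M, ε', a1, a2, a3, H⟩ := tgn (J d) (d - e) (d - e) q ε q0 e0
  refine ⟨q', M, ε', a1, a2, a3, fun X Y g ω c => ?_⟩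
  obtain ⟨cg, -, k⟩ := stg _ X Y g c
  refine ⟨cg, fun W h p s hd he e1 b ft hp => ?_⟩
  obtain ⟨r, rfl, t⟩ := k W h d e ω p s hd he e1 b ft hp
  rw [Nat.add_sub_cancel_left] at H
  exact (@H Y.K X.K _ _ _ _ p.toAlgebra (@IsScalarTower.of_algebraMap_eq _ _ _ _ _ _ _ p.toAlgebra _
    fun a => (hp.cst cg.1 a).symm) e _ e1 t).2.2

end Vale.Agent.P283R.Rs
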