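import Vale.Agent.P283R.Rs.St

/-!
# P283R, block RS: the wrappers (rows `WRA`, `WRB`)
-/

open CategoryTheory AlgebraicGeometry

noncomputable section

namespace Vale.Agent.P283R.Rs

open Sl Sl.Var Vale.Agent.P287D

variable {T : ∀ (d : ℕ) (X Y : Var), (X.X ⟶ Y.X) → X.Form d → Prop}
  {C : ∀ (d : ℕ) (X Z : Var), (X.X ⟶ Z.X) → X.Form d → X.QDiv → Pt Z.X → Prop}

theorem Gw.ctr90 (H : Gw T) {d : ℕ} {X Y : Var} {g : X.X ⟶ Y.X} {ω : X.Form d}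
    (t : T d X Y g ω) : Contraction g :=
  let ⟨_, _, _, _, _, _, k⟩ := H d 0 1 1 one_pos one_pos
  (k X Y g ω t).1

/-- the base is of Fano type -/
theorem Gw.fano90 (H : Gw T) {d e : ℕ} {X Y W : Var} {g : X.X ⟶ Y.X} {h : Y.X ⟶ W.X}
    {ω : X.Form d} {η : Y.Form e} {p : Y.K →+* X.K} (t : T d X Y g ω) (s : Surjective h)
    (hp : Et.Pe (W := X.o) (Z := Y.o) g p) (hd : dimension X.str = d) (he : dimension Y.str = e)
    (e1 : 1 ≤ e) (b : ω.Nonzero) (b' : η.Nonzero) (ft : FanoType (g ≫ h) ω) : FanoType h η := by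
  have cg := H.ctr90 t
  obtain ⟨r, rfl⟩ := Nat.exists_eq_add_of_le (cg.dim_le hd he)
  refine (fanoType_iff h η).2 (Dp.ftg (X := X.o) (Y := Y.o) (Z := W.o) cg hp s
    (e1.trans (Nat.le_add_right e r)) hd b (fun q ε B q0 ε0 hB hq tr => ?_)
    ((fanoType_iff _ ω).1 ft))
  obtain ⟨q', M, ε', a1, a2, a3, k⟩ := H (e + r) e q ε q0 ε0
  obtain ⟨Δ, c1, -, c3, -⟩ := Dp.dwg64 (r := r) ε0 a1 a2 a3 X.o Y.o g p cg hp e ω η B e1 hd b b'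
    hB hq tr (P283M.Br.ffd Y.o e he) ((k X Y g ω t).2 W h p s hd he e1 b ft hp)
  exact ⟨ε', Δ, a3, c1, c3⟩

/-- the wrapper -/
theorem Gw.on90 (H : Gw T) (h : On C) : On fun d X Z f ω B z =>
    ∃ (e : ℕ) (Y : Var) (g : X.X ⟶ Y.X) (h : Y.X ⟶ Z.X) (η : Y.Form e) (p : Y.K →+* X.K),
      1 ≤ e ∧ dimension Y.str = e ∧ η.Nonzero ∧ g ≫ h = f ∧ Contraction h ∧
      Et.Pe (W := X.o) (Z := Y.o) g p ∧ T d X Y g ω ∧ FanoType f ω ∧ TrivialOver g ω B ∧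
      ∀ Δ : Y.QDiv, Pair (0 < ·) (all Y.X) η Δ →
        Cf.Pull (X := X.o) (Y := Y.o) g p (logCan ω B) (logCan η Δ) → C e Y Z h η Δ z := by
  intro d hd ε hε R hR
  have hq : 0 < ∏ a ∈ R, a.den := Finset.prod_pos fun a _ => a.den_pos
  choose q' M ε' a1 a2 a3 G using fun e => H d (e + 1) _ ε hq hε
  choose n hn K using fun e => h (e + 1) (Nat.le_add_left _ _) (ε' e) (a3 e) _ (Dp.rng64 (a1 e))
  have N0 : 0 < ∏ x ∈ Finset.range d, M x * n x :=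
    Finset.prod_pos fun x _ => Nat.mul_pos (a2 _) (hn _)
  refine ⟨_, N0, fun X Z f ω B z a b c i s t u => ?_⟩
  obtain ⟨e, Y, g, h', η, p, b1, b2, b3, rfl, b6, hp, w, ft, tr, u⟩ := u
  obtain ⟨e, rfl⟩ : ∃ k, e = k + 1 := ⟨e - 1, (Nat.sub_add_cancel b1).symm⟩
  have b5 := H.ctr90 w
  obtain ⟨r, rfl⟩ := Nat.exists_eq_add_of_le (b5.dim_le a b2)
  obtain ⟨Δ, c1, c2, c3, c4⟩ := Dp.dwg64 (r := r) hε (a1 e) (a2 e) (a3 e) X.o Y.o g p b5 hp (e + 1)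
    ω η B b1 a b b3 ((pair_iff _ _ ω B).1 c) (fun E => by
      by_cases z : B E = 0
      · exact ⟨0, (congrArg (_ * ·) z).trans (by simp)⟩
      · obtain ⟨k, hk⟩ := Br.den R (i E z) (hR _ (i E z)).1
        exact ⟨k, hk⟩) tr (P283M.Br.ffd Y.o _ b2)
    ((G e X Y g ω w).2 Z h' p b6.2.2.1 a b2 b1 b ft hp)
  have c1' := (pair_iff _ _ η Δ).2 c1
  have dv : M e * n e ∣ ∏ x ∈ Finset.range (e + 1 + r), M x * n x :=
    Finset.dvd_prod_of_mem (fun x : ℕ => M x * n x) (a := e)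
      (by simp only [Finset.mem_range]; omega)
  refine (has_iff _ ω B _ z).2 (c4 Z.o h' z _ N0 ((dvd_mul_right _ _).trans dv)
    ((has_iff h' η Δ _ z).1 ((K e Y Z h' η Δ z b2 b3 c1' c2 b6 t
      (u Δ ?_ c3)).of_dvd ((dvd_mul_left _ _).trans dv))))
  exact ⟨c1'.1, c1'.2.1, fun W E k m φ m0 l => (a3 e).trans_le (c1'.2.2 W E k m φ m0 l)⟩

/-- over a class which may depend on the boundary -/
theorem Gw.cls90 (H : Gw T) (h : OnN C) :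
    OnN fun d X Z f ω B z => ∃ (e : ℕ) (Y : Var) (a : X.X ⟶ Y.X) (h : Y.X ⟶ Z.X) (θ : Y.Form e),
      dimension Y.str = e ∧ 1 ≤ e ∧ θ.Nonzero ∧ a ≫ h = f ∧ T d X Y a ω ∧
      TrivialOver a ω B ∧ ∀ Δ, C e Y Z h θ Δ z := by
  intro d hd ε hε R hR
  obtain ⟨n, hn, K⟩ := H.on90 h d hd ε hε R hR
  refine ⟨n, hn, fun X Z f ω B z a b c i s t u => K X Z f ω B z a b c i s t ?_⟩
  obtain ⟨ft, v, e, Y, g, k, η, b2, b1, b3, rfl, w, b7, b8⟩ := u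
  have b5 := H.ctr90 w
  have b6 := b5.of_comp s
  have := b5.2.2.1
  obtain ⟨p, hp⟩ := Cf.Fto.exists_pe (X := X.o) (Y := Y.o) g
  exact ⟨e, Y, g, k, η, p, b1, b2, b3, rfl, b6, hp, w, ft, b7, fun Δ c7 c8 =>
    ⟨H.fano90 w b6.2.2.1 hp a b2 b1 b b3 ft,
      (nefOver_iff k _).2 (Cf.nef X.o Y.o g p b5 hp Z.o k _ _
        (Eb.logCan_fin (X := Y.o) b1 b2 b3 Δ) (fun y => c7.2.1 y trivial) c8
        ((nefOver_iff _ _).1 v)), b8 Δ⟩⟩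

/-- over a germ -/
theorem Gw.germ90 (H : Gw T) {S : ℕ → ∀ Z : Var, Pt Z.X → Prop}
    (h : On fun d _ Z f ω B z => Crepant f ω B z ∧ S d Z z) : OnN fun d X Z f ω B z =>
    ∃ e : ℕ, dimension Z.str = e ∧ 1 ≤ e ∧ T d X Z f ω ∧ TrivialOver f ω B ∧ S e Z z := by
  intro d hd ε hε R hR
  obtain ⟨n, hn, K⟩ := H.on90 h d hd ε hε R hR
  refine ⟨n, hn, fun X Z f ω B z a b c i s t ⟨ft, _, e, b1, b2, b3, b4, b5⟩ =>
    K X Z f ω B z a b c i s t ?_⟩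
  have := s.2.2.1
  obtain ⟨p, hp⟩ := Cf.Fto.exists_pe (X := X.o) (Y := Z.o) f
  obtain ⟨m, η, h1, h2⟩ := exists_form Z
  obtain rfl : e = m := Nat.cast_injective (b1.symm.trans h1)
  exact ⟨e, Z, f, 𝟙 _, η, p, b2, b1, h2, Category.comp_id _, Br.ctr_id (X := Z.o), hp, b3, ft,
    b4, fun Δ l _ =>
      ⟨⟨⟨_, Br.pb_id (X := Z.o)⟩, Br.loc_id (X := Z.o) ((pair_iff _ _ η Δ).1 l) z⟩, b5⟩⟩

/-- **WRA** -/
theorem wra90 : WRA := fun _ H _ h =>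
  (H.cls90 h).mono fun _ _ _ _ _ _ _ ⟨e, Y, g, h, η, b1, b2, b3, b4, b5, b6, u⟩ =>
    ⟨e, Y, g, h, η, b1, b2, b3, b4, b5, b6, fun _ => u⟩

/-- **WRB** -/
theorem wrb90 : WRB := fun _ H =>
  ((H.germ90 (S := fun e W w => LciqReg W w ∨ 3 ≤ e ∧ MildCover e (e - 3) W w)
    ((Pu.on.or on_cdv).mono fun _ _ _ _ _ _ _ u =>
      u.2.imp (fun v => ⟨u.1, v⟩) fun v => ⟨v.1, u.1, v.2⟩)).or onN_lci0).mono
    fun _ _ _ _ _ _ _ ⟨e, a, b, c, t, u⟩ => by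
      rcases u with u | u
      · rcases u.elim with v | ⟨⟨rfl, v⟩, w⟩
        · exact .inl ⟨e, a, b, c, t, .inl v⟩
        · exact .inr ⟨a, t, v, w⟩
      · exact .inl ⟨e, a, b, c, t, .inr u⟩

end Vale.Agent.P283R.Rs
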