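import Vale.Agent.P283R.Rs.Gex15
import Vale.Agent.P283R.Rs.Exc14
import Vale.Agent.P283R.Rs.Rer55
import Vale.Agent.P283R.Rs.Stp27
import Vale.Agent.P283R.Rs.Wr90
import Vale.Agent.P283R.Dn.All

/-!
# P283R, block RS: the assembly
-/

open CategoryTheory AlgebraicGeometry

namespace Vale.Agent.P283R

theorem Rs.res : Rs.RES := Rs.rer55 Rs.gex15 Rs.exc14

/-- the state descends along partially resolved nested towers -/
theorem Rs.gw (J : ℕ → ℕ) :
    Rs.Gw fun d _ _ g ω => Sl.Resolved (J d) (fun _ => Sl.Steps (J d)) g ω :=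
  Rs.res J (fun d _ _ g => Sl.Steps (J d) g) (Rs.gw_steps Dn.tgn Dn.rows.stg J)

namespace Sl

open Var

/-- the trivial resolution -/
theorem Resolved.of_id {J d : ℕ} {X Y : Var} {T : ∀ X' : Var, (X'.X ⟶ Y.X) → Prop}
    {g : X.X ⟶ Y.X} {ω : X.Form d} (c : Contraction g) (t : T X g) (b : ω.Nonzero)
    (ft : FanoType g ω) : Resolved J T g ω :=
  ⟨c, X, 𝟙 _, RingEquiv.refl _, ω, Br.ctr_id (X := X.o), Br.pb_id (X := X.o), b,
    (Category.id_comp g).symm ▸ ft, (Category.id_comp g).symm ▸ t, fun E => .inl E.2⟩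

theorem Steps.resolved {J d : ℕ} {X Y : Var} {g : X.X ⟶ Y.X} {ω : X.Form d} (t : Steps J g)
    (b : ω.Nonzero) (ft : FanoType g ω) : Resolved J (fun _ => Steps J) g ω :=
  .of_id (t.ctr Dn.rows) t b ft

/-- partially resolved nested towers over a class -/
theorem OnN.res (J : ℕ → ℕ) {C : ∀ (d : ℕ) (X Z : Var), (X.X ⟶ Z.X) → X.Form d → Pt Z.X → Prop}
    (h : OnN fun d X Z f ω _ z => C d X Z f ω z) :
    OnN fun d X Z f ω B z => ∃ (e : ℕ) (T : Var) (a : X.X ⟶ T.X) (h : T.X ⟶ Z.X) (θ : T.Form e),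
      dimension T.str = e ∧ 1 ≤ e ∧ θ.Nonzero ∧ a ≫ h = f ∧
      Resolved (J d) (fun _ => Steps (J d)) a ω ∧ TrivialOver a ω B ∧ C e T Z h θ z :=
  Rs.wra90 _ (Rs.gw J) _ h

/-- partially resolved nested towers over a germ -/
theorem onN_res (J : ℕ → ℕ) : OnN fun d _ Z f ω B z =>
    ∃ e : ℕ, dimension Z.str = e ∧ 1 ≤ e ∧ Resolved (J d) (fun _ => Steps (J d)) f ω ∧
      TrivialOver f ω B ∧
      (LciqOr (e = d ∧ SameCoeff f B.coeff 0) Z z ∨ 3 ≤ e ∧ MildCover e (e - 3) Z z) :=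
  Rs.wrb90 _ (Rs.gw J)

/-- partially resolved nested towers over a class or over a germ, after an étale base change;
the bound may depend on the dimension and on `ε` -/
theorem literalR (J : ℕ → ℝ → ℕ)
    {C : ∀ (d : ℕ) (X Z : Var), (X.X ⟶ Z.X) → X.Form d → Pt Z.X → Prop}
    (h : OnN fun d X Z f ω _ z => C d X Z f ω z) :
    ∀ d : ℕ, 1 ≤ d → ∀ ε : ℝ, 0 < ε → ∀ R : Finset ℚ, (∀ r ∈ R, 0 ≤ r ∧ r ≤ 1) →
    ∃ n : ℕ, 1 ≤ n ∧ ∀ (X Z : Var) (f : X.X ⟶ Z.X) (ω : X.Form d) (B : X.QDiv)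
      (z : Pt Z.X), dimension X.str = d → ω.Nonzero → Pair (ε ≤ ·) (all X.X) ω B →
      (∀ y, B.coeff y ≠ 0 → B.coeff y ∈ R) → Contraction f → FanoType f ω →
      NefOver f (-logCan ω B) → z.Closed →
      EtLocal (fun Y W g (η : Y.Form d) D w =>
        (∃ (e : ℕ) (T : Var) (a : Y.X ⟶ T.X) (h : T.X ⟶ W.X) (θ : T.Form e),
          dimension T.str = e ∧ 1 ≤ e ∧ θ.Nonzero ∧ a ≫ h = g ∧
          Resolved (J d ε) (fun _ => Steps (J d ε)) a η ∧ TrivialOver a η D ∧ C e T W h θ w) ∨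
        ∃ e : ℕ, dimension W.str = e ∧ 1 ≤ e ∧ Resolved (J d ε) (fun _ => Steps (J d ε)) g η ∧
          TrivialOver g η D ∧
          (LciqOr (e = d ∧ SameCoeff g D.coeff 0) W w ∨ 3 ≤ e ∧ MildCover e (e - 3) W w)) f B z →
      HasKltComplement f ω B n z := fun d hd ε hε R hR =>
  (((h.res fun d => J d ε).or (onN_res fun d => J d ε)).et d hd ε hε R hR).imp
    fun _ H => ⟨H.1, fun X Z f ω B z a b c e s u v t w => H.2 X Z f ω B z a b c e s t ⟨u, v, w⟩⟩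

end Sl

end Vale.Agent.P283R
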