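import Vale.Agent.P283R.Lz.Or
import Vale.Agent.P283R.Lz.On6

/-!
# P283R: the germ clauses over partially resolved towers
-/

open CategoryTheory AlgebraicGeometry

namespace Vale.Agent.P283R.Lz

open Sl Sl.Var

/-- quotients of germs of bounded embedding dimension, and any other class of germs -/
theorem res_germE (J M q : ℕ → ℕ) (hq : ∀ d, 1 ≤ q d)
    {S : ℕ → ∀ Z : Var, Pt Z.X → Prop} (h : On fun d _ Z f ω B z => Crepant f ω B z ∧ S d Z z) :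
    OnN fun d _ W g η D w => ∃ e : ℕ, dimension W.str = e ∧ 1 ≤ e ∧ Res (J d) g η ∧ Triv g η D ∧
      ((∃ (S : Var) (π : S.X ⟶ W.X), FinQuot π ∧ EmbDim (M e) π w ∧
        (NoTors π w ∨ e = d ∧ Same g D.coeff 0 ∧ ∃ θ : S.Form e, θ.Nonzero ∧
          ∀ x : Pt S.X, x.map π = w → ∃ a, LocalEq (logCan θ 0) (q e) a x)) ∨ S e W w) :=
  ((res_germ J (S := fun e W w =>
      (∃ (S : Var) (π : S.X ⟶ W.X), FinQuot π ∧ EmbDim (M e) π w ∧ NoTors π w) ∨ S e W w)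
      (((on_eq M).or h).mono fun _ _ _ _ _ _ _ u =>
        u.2.imp (fun v => ⟨u.1, v⟩) fun v => ⟨u.1, v⟩)).or (onN_eq0 M q hq)).mono
    fun _ _ _ _ _ _ _ ⟨e, a, b, c, t, u⟩ => by
      rcases u with ⟨S, π, u, v, k | ⟨rfl, k, l⟩⟩ | u
      · exact .inl ⟨e, a, b, c, t, .inl ⟨S, π, u, v, k⟩⟩
      · exact .inr ⟨a, t, k, S, π, u, v, l⟩
      · exact .inl ⟨e, a, b, c, t, .inr u⟩

/-- one finite cover: bounded embedding dimension, or a mild point -/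
theorem res_germQ (J M q : ℕ → ℕ) (hq : ∀ d, 1 ≤ q d) :
    OnN fun d _ W g η D w => ∃ e : ℕ, dimension W.str = e ∧ 1 ≤ e ∧ Res (J d) g η ∧ Triv g η D ∧
      ∃ (S : Var) (π : S.X ⟶ W.X), FinQuot π ∧ (EmbDim (M e) π w ∧
        (NoTors π w ∨ e = d ∧ Same g D.coeff 0 ∧ ∃ θ : S.Form e, θ.Nonzero ∧
          ∀ x : Pt S.X, x.map π = w → ∃ a, LocalEq (logCan θ 0) (q e) a x) ∨
        3 ≤ e ∧ ∃ y, (∀ x : Pt S.X, x.map π = w ↔ x = y) ∧ Sl.Mild e 1 (e - 3) S y) :=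
  (res_germE J M q hq cr_mq).mono fun _ _ _ _ _ _ _ ⟨e, a, b, c, t, S, π, u, v⟩ =>
    ⟨e, a, b, c, t, v.imp (fun k => ⟨S, π, u, k⟩) fun ⟨k, y, l⟩ => ⟨k, S, π, y, u, l⟩⟩

/-- partially resolved towers over a class or over a quotient germ, after an étale base change -/
theorem literalRF (J : ℕ → ℝ → ℕ) (M : ℕ → ℕ)
    {C : ∀ (d : ℕ) (X Z : Var), (X.X ⟶ Z.X) → X.Form d → Pt Z.X → Prop}
    (h : OnN fun d X Z f ω _ z => C d X Z f ω z) :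
    ∀ d : ℕ, 1 ≤ d → ∀ ε : ℝ, 0 < ε → ∀ R : Finset ℚ, (∀ r ∈ R, 0 ≤ r ∧ r ≤ 1) →
    ∃ n : ℕ, 1 ≤ n ∧ ∀ (X Z : Var) (f : X.X ⟶ Z.X) (ω : X.Form d) (B : X.QDiv)
      (z : Pt Z.X), dimension X.str = d → ω.Nonzero → Pair (ε ≤ ·) (all X.X) ω B →
      (∀ y, B.coeff y ≠ 0 → B.coeff y ∈ R) → Contr f → Fano f ω →
      Nef f (-logCan ω B) → z.Closed →
      EtLoc (fun Y W g (η : Y.Form d) D w =>
        (∃ (e : ℕ) (T : Var) (a : Y.X ⟶ T.X) (h : T.X ⟶ W.X) (θ : T.Form e),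
          dimension T.str = e ∧ 1 ≤ e ∧ θ.Nonzero ∧ a ≫ h = g ∧ Res (J d ε) a η ∧ Triv a η D ∧
          C e T W h θ w) ∨
        ∃ e : ℕ, dimension W.str = e ∧ 1 ≤ e ∧ Res (J d ε) g η ∧ Triv g η D ∧
          ∃ (S : Var) (π : S.X ⟶ W.X), FinQuot π ∧ (EmbDim (M e) π w ∧
            (NoTors π w ∨ e = d ∧ Same g D.coeff 0 ∧ ∃ θ : S.Form e, θ.Nonzero ∧
              ∀ x : Pt S.X, x.map π = w → ∃ a, LocalEq (logCan θ 0) 1 a x) ∨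
            3 ≤ e ∧ ∃ y, (∀ x : Pt S.X, x.map π = w ↔ x = y) ∧
              Sl.Mild e 1 (e - 3) S y)) f B z →
      Compl f ω B n z := fun d hd ε =>
  litB ((res (fun d => J d ε) h).or (res_germQ (fun d => J d ε) M (fun _ => 1) fun _ => le_rfl))
    d hd ε

end Vale.Agent.P283R.Lz
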