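import Vale.Agent.P283R.Rs.St

/-!
# P283R, block RS: the exceptional places are controlled (row `EXC`)
-/

open Set CategoryTheory AlgebraicGeometry

noncomputable section

namespace Vale.Agent.P283R.Rs

open Vale.Agent.P287D Vale.Agent.P297Z
open Vale.Agent.P289 (Pt St toRat DForm dimension)
open Vale.Agent.P283M Vale.Agent.P283M.Stm Vale.Agent.P283M.Stm.Var
open Vale.Agent.P283M.Br (Dom har plc pl_of loc_uniq reg_gen)
open Vale.Agent.P283R.Et (Pe)

theorem reg_eta21 (Y : Var) (f : Y.K) : RegAt f (genericPoint Y.X) :=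
  ⟨f, by
    change (Y.X.presheaf.stalkSpecializes _).hom f = f
    rw [TopCat.Presheaf.stalkSpecializes_refl]
    rfl⟩

theorem le21 {X : Var} {x : Pt X.X} {P : Pl X.K} {c c' : X.K} {m m' : ℕ} (c0 : c ≠ 0)
    (c1 : c' ≠ 0) (le : ∀ y : X.PrimeDiv, y.1 ⤳ x → (m' : ℝ) * ord c y ≤ m * ord c' y)
    (hP : Dom P.ring x) : (m' : ℝ) * P.ord c ≤ m * P.ord c' := by
  have a0 := pow_ne_zero m' c0
  have b0 := pow_ne_zero m c1
  have r : RegAt (c' ^ m / c ^ m') x := har X _ _ fun y hy => by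
    obtain ⟨Q, -, e⟩ := pl_of plc y
    have a := le y hy
    rw [e, e] at a
    rw [e, Pl.ord_div _ b0 a0, Pl.ord_pow, Pl.ord_pow, sub_nonneg]
    exact_mod_cast a
  have := Pl.ord_nonneg_of_mem _ (hP _ r).1
  rw [Pl.ord_div _ b0 a0, Pl.ord_pow, Pl.ord_pow, sub_nonneg] at this
  exact_mod_cast this

/-- **EXC** -/
theorem exc21 : EXC := by
  intro X Y g p n J ω j x P hp _ _ fr j0 hP gx hD ⟨m', a', m1, l', le'⟩
  let _ := p.toAlgebra
  have rg : ∀ f : Y.K, RegAt (p f) x := fun f => hp.reg (gx ▸ reg_eta21 Y f)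
  refine ⟨fun f => (hP _ (rg f)).1, fun y m q h ⟨D, hy⟩ m0 h0 H => ?_⟩
  obtain ⟨f, f0, ef⟩ := Aj.kap_cn hy
  have jf : j / f ≠ 0 := div_ne_zero j0 f0
  have a0 : h * (j / f) ^ m ≠ 0 := mul_ne_zero h0 (pow_ne_zero _ jf)
  have mr : (0 : ℝ) < m := Nat.cast_pos.2 m0
  have el : ∀ Q : Pl X.K, ld y m h Q =
      1 + (cn X.K n Q + Q.ord j) - Q.ord (h * (j / f) ^ m) / m := fun Q => by
    rw [ld, ef, Pi.add_apply, dv_apply, Pl.ord_mul _ h0 (pow_ne_zero _ jf), Pl.ord_pow,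
      Pl.ord_div _ j0 f0]
    push_cast
    field_simp
    ring
  generalize h * (j / f) ^ m = a at a0 el
  have key : ∀ F : X.PrimeDiv, F.1 ⤳ x →
      (m : ℝ) * formOrd ω (RingEquiv.refl X.K) F ≤ ord a F ∧
        ∃ z : ℤ, (q : ℝ) * ord a F = m * z := fun F hF => by
    obtain ⟨Q, i, -⟩ := pl_of plc F
    obtain ⟨o, e⟩ := Cf.Dw.at_pl fr i.dom
    obtain ⟨k1, z, k2⟩ := H Q ⟨F, i.dom⟩ fun c => (i.dom _ (reg_gen hF (rg c))).1
    rw [el, ← e, ← o] at k1 k2
    refine ⟨?_, q * (1 + formOrd ω (RingEquiv.refl X.K) F) - z, ?_⟩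
    · rw [mul_comm, ← le_div_iff₀ mr]
      linarith
    · push_cast
      rw [← k2]
      field_simp
      ring
  have : ∀ F : X.PrimeDiv, ∃ z : ℤ, F.1 ⤳ x → (q : ℝ) * ord a F = m * z := fun F => by
    by_cases hF : F.1 ⤳ x
    · exact (key F hF).2.imp fun _ k _ => k
    · exact ⟨0, fun k => (hF k).elim⟩
  choose E hE using this
  have lE : LocalEq (fun F => (E F : ℚ)) m (a ^ q) x := ⟨pow_ne_zero _ a0, fun F hF => by
    obtain ⟨Q, -, e⟩ := pl_of plc F
    have k := hE F hF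
    rw [e] at k
    rw [e, Pl.ord_pow]
    change _ = (m : ℚ) * (E F : ℚ)
    exact_mod_cast k⟩
  obtain ⟨b, lb⟩ := hD E m _ m0 lE
  have u := loc_uniq har plc lE lb hP
  have v : (m : ℝ) * P.ord a' ≤ m' * P.ord a := le21 l'.1 a0 (fun F hF => by
    have k := l'.2 F hF
    rw [logCan, Finsupp.zero_apply, add_zero] at k
    have k' : (ord a' F : ℝ) = m' * formOrd ω (RingEquiv.refl X.K) F := by exact_mod_cast k
    have := mul_le_mul_of_nonneg_left (key F hF).1 (Nat.cast_nonneg m' : (0 : ℝ) ≤ m')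
    rw [k']
    linarith) hP
  have mr' : (0 : ℝ) < m' := Nat.cast_pos.2 m1
  obtain ⟨w, hw⟩ := Cb.cn_int (n := n) P
  rw [el]
  refine ⟨?_, (q * J.factorial : ℕ) * (1 + w + P.ord j) - P.ord b, ?_⟩
  · have : cn X.K n P + P.ord j ≤ P.ord a / m := by
      rw [le_div_iff₀ mr]
      refine le_of_mul_le_mul_left ?_ mr'
      have := mul_le_mul_of_nonneg_left le' mr.le
      linarith
    linarith
  · rw [Pl.ord_pow] at u
    push_cast at u ⊢
    rw [hw]
    field_simp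
    linarith

end Vale.Agent.P283R.Rs
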