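import Vale.Agent.P283R.Rs.St

/-!
# P283R, block RS: geometric towers descend the state
-/

open Set CategoryTheory AlgebraicGeometry

noncomputable section

namespace Vale.Agent.P283R.Rs

open Vale.Agent.P287D
open Sl Sl.Var

/-- **GEO** -/
theorem geo63 : GEO := by
  intro J d e q ε hq hε
  obtain ⟨q', M, ε', a1, a2, a3, H⟩ := Dp.tog11 (J d) (d - e) q ε hq hε
  refine ⟨q', M, ε', a1, a2, a3, fun X Y g ω c => ⟨c.1, fun W h p s hd he e1 b ft hp => ?_⟩⟩
  obtain ⟨p', r, hp', rfl, T⟩ := c.gt Dp.rows s hd he e1 b ft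
  obtain rfl : p = p' := Dp.pe_uniq88 hp hp'
  rw [Nat.add_sub_cancel_left] at H
  let := p.toAlgebra
  exact (@H Y.K X.K _ _ _ _ _ (.of_algebraMap_eq fun z => (hp.cst c.1.1 z).symm) e _ e1 T).2.2

end Vale.Agent.P283R.Rs
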