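import Vale.Agent.P283R.Rs.St

/-!
# P283R, block RS: the controlled places are dropped
-/

open Set

noncomputable section

namespace Vale.Agent.P283R.Rs

open Vale.Agent.P287D
open Cf (Go ForE aj)

/-- **GEX** -/
theorem gex63 : GEX := by
  intro k K _ _ _ _ _ _ d n q J q' M ε ε' T T' sub ex G k₀ ι _ _ _ φ v c μ y x m h hy hx m0 h0 S
  have tr : ∀ (P : Pl K) j, Trv (algebraMap k K) P →
      aj x m h (((algebraMap k K).comp φ) (c j)) (μ j) P = ld x m h P := fun P j t => by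
    rw [aj, RingHom.comp_apply, t.ord]
    simp
  obtain ⟨m₀, h₀, θ, a1, a2, a3, S₁, o, l⟩ := G k₀ ι φ v c μ y x m h hy hx m0 h0 fun j P hP =>
    ⟨(S j P hP).1, fun t => by
      rcases ex P t with z | ⟨z1, z2⟩
      · obtain ⟨b1, w, b2⟩ := (S j P hP).2 z
        exact ⟨b1, J.factorial * w, by push_cast; rw [← b2]; ring⟩
      · rw [tr P j z1]
        exact z2 x m q h hx m0 h0 fun P' t' u => tr P' j u ▸ (S j P' fun a _ => u _).2 t'⟩
  exact ⟨m₀, h₀, θ, a1, a2, a3, fun j w hw => ⟨(S₁ j w hw).1,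
    fun ⟨P, p, u⟩ => (S₁ j w hw).2 ⟨P, sub p, u⟩⟩, o, l⟩

end Vale.Agent.P283R.Rs
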