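import Vale.Agent.P283R.Dp.All
import Vale.Agent.P283R.Sl.Rs

/-!
# P283R, block RS: partial resolutions of the generic fibre, the rows
-/

open Set CategoryTheory AlgebraicGeometry

noncomputable section

namespace Vale.Agent.P283R.Rs

open Vale.Agent.P287D
open Cf (Go ForE Pri)

/-- the place `P` is horizontal, and its coefficient is controlled by the coefficients of the
horizontal places in `T` -/
def Ex (k : Type) {K : Type} [Field k] [Field K] [Algebra ℂ K] [Algebra k K] (n J : ℕ)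
    (T : Set (Pl K)) (P : Pl K) : Prop :=
  Trv (algebraMap k K) P ∧ ∀ (x : Fin n → K) (m q : ℕ) (h : K), Frm x → 0 < m → h ≠ 0 →
    (∀ P' ∈ T, Trv (algebraMap k K) P' → ld x m h P' ≤ 1 ∧ ∃ z : ℤ, q * ld x m h P' = z) →
    ld x m h P ≤ 1 ∧ ∃ z : ℤ, (q * J.factorial : ℕ) * ld x m h P = z

/-- **GEX**: the controlled places are dropped -/
def GEX : Prop := ForE fun k K _ _ _ _ _ => ∀ (d n q J q' M : ℕ) (ε ε' : ℝ) (T T' : Set (Pl K)),
  T ⊆ T' → (∀ P ∈ T', P ∈ T ∨ Ex k n J T P) → Go k d n (q * J.factorial) ε q' M ε' T' →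
    Go k d n q ε q' M ε' T

section schemes

open Vale.Agent.P289 (Pt DForm dimension)
open Vale.Agent.P283M Vale.Agent.P283M.Stm Vale.Agent.P283M.Stm.Var
open Vale.Agent.P283M.Br (Is Dom)
open Vale.Agent.P283R.Et (Pe)

/-- **EXC**: the exceptional places are controlled -/
def EXC : Prop := ∀ (X Y : Var) (g : X.X ⟶ Y.X) (p : Y.K →+* X.K) (n J : ℕ) (ω : DForm ℂ X.K n)
  (j : X.K) (x : Pt X.X) (P : Pl X.K), Pe g p → dimension X.str = n → 1 ≤ n → Br.Frm ω j → j ≠ 0 →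
    Dom P.ring x → x.map g = genericPoint Y.X →
    (∀ (D : X.PrimeDiv → ℤ) m a, 0 < m → LocalEq (fun F => D F) m a x →
      ∃ b, LocalEq (fun F => D F) J.factorial b x) →
    (∃ m a, 0 < m ∧ LocalEq (logCan ω 0) m a x ∧
      (m : ℝ) * (cn X.K n P + P.ord j) ≤ P.ord a) →
    (letI := p.toAlgebra; Ex Y.K n J (Pri X) P)

end schemes

open Sl Sl.Var

/-- the state descends along the morphisms of the class `T` -/
def Gw (T : ∀ (d : ℕ) (X Y : Var), (X.X ⟶ Y.X) → X.Form d → Prop) : Prop :=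
  ∀ (d e q : ℕ) (ε : ℝ), 0 < q → 0 < ε → ∃ (q' M : ℕ) (ε' : ℝ), 0 < q' ∧ 0 < M ∧ 0 < ε' ∧
    ∀ (X Y : Var) (g : X.X ⟶ Y.X) (ω : X.Form d), T d X Y g ω → Contraction g ∧
      ∀ (W : Var) (h : Y.X ⟶ W.X) (p : Y.K →+* X.K), Surjective h →
        dimension X.str = d → dimension Y.str = e → 1 ≤ e → ω.Nonzero → FanoType (g ≫ h) ω →
        Et.Pe (W := X.o) (Z := Y.o) g p →
        (letI := p.toAlgebra; Go Y.K e d q ε q' M ε' (Pri X.o))

/-- **RES**: partial resolutions -/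
def RES : Prop := ∀ (J : ℕ → ℕ) (T : ∀ (_ : ℕ) (X Y : Var), (X.X ⟶ Y.X) → Prop),
  (Gw fun d X Y g _ => T d X Y g) → Gw fun d _ Y g ω => Resolved (J d) (fun X' => T d X' Y) g ω

/-- **RER** -/
def RER : Prop := GEX → EXC → RES

/-- **GEO**: geometric towers -/
def GEO : Prop := ∀ J : ℕ → ℕ, Gw fun d _ _ g _ => GeoTower (J d) g

/-- **WRA**: over a class -/
def WRA : Prop := ∀ T, Gw T →
  ∀ C : ∀ (d : ℕ) (X Z : Var), (X.X ⟶ Z.X) → X.Form d → Pt Z.X → Prop,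
    (OnN fun d X Z f ω _ z => C d X Z f ω z) →
    OnN fun d X Z f ω B z => ∃ (e : ℕ) (Y : Var) (a : X.X ⟶ Y.X) (h : Y.X ⟶ Z.X) (θ : Y.Form e),
      dimension Y.str = e ∧ 1 ≤ e ∧ θ.Nonzero ∧ a ≫ h = f ∧ T d X Y a ω ∧
      TrivialOver a ω B ∧ C e Y Z h θ z

/-- **WRB**: over a germ -/
def WRB : Prop := ∀ T, Gw T → OnN fun d X Z f ω B z =>
  ∃ e : ℕ, dimension Z.str = e ∧ 1 ≤ e ∧ T d X Z f ω ∧ TrivialOver f ω B ∧
    (LciqOr (e = d ∧ SameCoeff f B.coeff 0) Z z ∨ 3 ≤ e ∧ MildCover e (e - 3) Z z)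

end Vale.Agent.P283R.Rs
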