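import Vale.Agent.P283R.Rs.St

/-!
# P283R, block RS: the wrappers
-/

open CategoryTheory AlgebraicGeometry

noncomputable section

namespace Vale.Agent.P283R.Rs

open Sl Sl.Var Vale.Agent.P287D

namespace W9

variable {T : ∀ (d : ℕ) (X Y : Var), (X.X ⟶ Y.X) → X.Form d → Prop}
  {C : ∀ (d : ℕ) (X Z : Var), (X.X ⟶ Z.X) → X.Form d → X.QDiv → Pt Z.X → Prop}

theorem dw (G : Gw T) (d e q : ℕ) (ε : ℝ) (q0 : 0 < q) (ε0 : 0 < ε) :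
    ∃ (R : Finset ℚ) (M : ℕ) (ε' : ℝ), (∀ a ∈ R, 0 ≤ a ∧ a ≤ 1) ∧ 0 < M ∧ 0 < ε' ∧
      ∀ (X Y W : Var) (g : X.X ⟶ Y.X) (h : Y.X ⟶ W.X) (ω : X.Form d) (η : Y.Form e)
        (p : Y.K →+* X.K) (B : X.QDiv), T d X Y g ω → Surjective h → dimension X.str = d →
        dimension Y.str = e → 1 ≤ e → ω.Nonzero → η.Nonzero → FanoType (g ≫ h) ω →
        Et.Pe (W := X.o) (Z := Y.o) g p → Pair (ε ≤ ·) (all X.X) ω B →
        (∀ E, ∃ z : ℤ, q * B E = z) → TrivialOver g ω B →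
        ∃ Δ : Y.QDiv, Pair (ε' ≤ ·) (all Y.X) η Δ ∧ (∀ E, Δ E ≠ 0 → Δ E ∈ R) ∧
          Cf.Pull (X := X.o) (Y := Y.o) g p (logCan ω B) (logCan η Δ) ∧
          ∀ (z : Pt W.X) (n : ℕ), 0 < n → M ∣ n →
            HasKltComplement h η Δ n z → HasKltComplement (g ≫ h) ω B n z := by
  obtain ⟨q', M, ε', q1, M0, ε1, H⟩ := G d e q ε q0 ε0
  refine ⟨_, M, ε', Dp.rng64 q1, M0, ε1,
    fun X Y W g h ω η p B t s hd he e1 b b' ft hp c int tr => ?_⟩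
  obtain ⟨cg, go⟩ := H X Y g ω t
  have go := go W h p s hd he e1 b ft hp
  obtain ⟨r, rfl⟩ := Nat.exists_eq_add_of_le (cg.dim_le hd he)
  obtain ⟨Δ, c1, c2, c3, c4⟩ := Dp.dwg64 ε0 q1 M0 ε1 X.o Y.o g p cg hp e ω η B e1 hd b b'
    ((pair_iff _ _ ω B).1 c) int tr (Vale.Agent.P283M.Br.ffd Y.o _ he) go
  exact ⟨Δ, (pair_iff _ _ η Δ).2 c1, c2, c3, fun z n n0 dv k =>
    (has_iff _ ω B _ z).2 (c4 W.o h z n n0 dv ((has_iff h η Δ _ z).1 k))⟩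

theorem on_cls (G : Gw T) (h : On C) : On fun d X Z f ω B z =>
    ∃ (e : ℕ) (Y : Var) (g : X.X ⟶ Y.X) (h : Y.X ⟶ Z.X) (η : Y.Form e) (p : Y.K →+* X.K),
      1 ≤ e ∧ dimension Y.str = e ∧ η.Nonzero ∧ g ≫ h = f ∧ Contraction h ∧
      Et.Pe (W := X.o) (Z := Y.o) g p ∧ T d X Y g ω ∧ FanoType f ω ∧ TrivialOver g ω B ∧
      ∀ Δ : Y.QDiv, Pair (0 < ·) (all Y.X) η Δ →
        Cf.Pull (X := X.o) (Y := Y.o) g p (logCan ω B) (logCan η Δ) → C e Y Z h η Δ z := by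
  intro d hd ε hε R hR
  have hq : 0 < ∏ a ∈ R, a.den := Finset.prod_pos fun a _ => a.den_pos
  choose R' M ε' a1 a2 a3 H using fun e => dw G d (e + 1) _ ε hq hε
  choose n hn K using fun e => h (e + 1) (Nat.le_add_left _ _) (ε' e) (a3 e) (R' e) (a1 e)
  have N0 : 0 < ∏ x ∈ Finset.range d, M x * n x :=
    Finset.prod_pos fun x _ => Nat.mul_pos (a2 _) (hn _)
  refine ⟨_, N0, fun X Z f ω B z a b c i s t u => ?_⟩
  obtain ⟨e, Y, g, h', η, p, b1, b2, b3, rfl, b6, hp, tt, ft, tr, u⟩ := u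
  obtain ⟨e, rfl⟩ : ∃ k, e = k + 1 := ⟨e - 1, (Nat.sub_add_cancel b1).symm⟩
  obtain ⟨_, _, _, -, -, -, G0⟩ := G d 0 1 1 one_pos one_pos
  have le := (G0 X Y g ω tt).1.dim_le a b2
  obtain ⟨Δ, c1, c2, c3, c4⟩ := H e X Y Z g h' ω η p B tt b6.2.2.1 a b2 b1 b b3 ft hp c (fun E => by
      by_cases z : B E = 0
      · exact ⟨0, (congrArg (_ * ·) z).trans (by simp)⟩
      · obtain ⟨k, hk⟩ := Br.den R (i E z) (hR _ (i E z)).1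
        exact ⟨k, hk⟩) tr
  have dv : M e * n e ∣ ∏ x ∈ Finset.range d, M x * n x :=
    Finset.dvd_prod_of_mem (fun x : ℕ => M x * n x) (Finset.mem_range.2 le)
  refine c4 z _ N0 ((dvd_mul_right _ _).trans dv)
    ((K e Y Z h' η Δ z b2 b3 c1 c2 b6 t (u Δ ?_ c3)).of_dvd ((dvd_mul_left _ _).trans dv))
  exact ⟨c1.1, c1.2.1, fun W E k m φ m0 l => (a3 e).trans_le (c1.2.2 W E k m φ m0 l)⟩

theorem ctr (G : Gw T) {d : ℕ} {X Y : Var} {g : X.X ⟶ Y.X} {ω : X.Form d} (t : T d X Y g ω) :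
    Contraction g :=
  let ⟨_, _, _, _, _, _, H⟩ := G d 0 1 1 one_pos one_pos
  (H X Y g ω t).1

theorem germ (G : Gw T) {S : ℕ → ∀ Z : Var, Pt Z.X → Prop}
    (h : On fun d _ Z f ω B z => Crepant f ω B z ∧ S d Z z) : OnN fun d X Z f ω B z =>
    ∃ e : ℕ, dimension Z.str = e ∧ 1 ≤ e ∧ T d X Z f ω ∧ TrivialOver f ω B ∧ S e Z z := by
  intro d hd ε hε R hR
  obtain ⟨n, hn, K⟩ := on_cls G h d hd ε hε R hR
  refine ⟨n, hn, fun X Z f ω B z a b c i s t ⟨ft, _, e, b1, b2, b3, b4, b5⟩ =>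
    K X Z f ω B z a b c i s t ?_⟩
  have := s.2.2.1
  obtain ⟨p, hp⟩ := Cf.Fto.exists_pe (X := X.o) (Y := Z.o) f
  obtain ⟨m, η, h1, h2⟩ := exists_form Z
  obtain rfl : e = m := Nat.cast_injective (b1.symm.trans h1)
  exact ⟨e, Z, f, 𝟙 _, η, p, b2, b1, h2, Category.comp_id _, Br.ctr_id (X := Z.o), hp, b3, ft,
    b4, fun Δ l _ =>
      ⟨⟨⟨_, Br.pb_id (X := Z.o)⟩, Br.loc_id (X := Z.o) ((pair_iff _ _ η Δ).1 l) z⟩, b5⟩⟩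

end W9

open W9

theorem wra9 : WRA := by
  intro T G C h d hd ε hε R hR
  obtain ⟨n, hn, K⟩ := on_cls G h d hd ε hε R hR
  refine ⟨n, hn, fun X Z f ω B z a b c i s t u => K X Z f ω B z a b c i s t ?_⟩
  obtain ⟨ft, v, e, Y, g, k, η, b2, b1, b3, rfl, tt, b7, b8⟩ := u
  have b5 := ctr G tt
  have b6 := b5.of_comp s
  have := b5.2.2.1
  obtain ⟨p, hp⟩ := Cf.Fto.exists_pe (X := X.o) (Y := Y.o) g
  refine ⟨e, Y, g, k, η, p, b1, b2, b3, rfl, b6, hp, tt, ft, b7, fun Δ c7 c8 =>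
    ⟨(fanoType_iff k η).2 (Dp.ftg (X := X.o) (Y := Y.o) (Z := Z.o) b5 hp b6.2.2.1 hd a b
      (fun q ε B q0 ε0 hB int tr => ?_) ((fanoType_iff _ ω).1 ft)),
      (nefOver_iff k _).2 (Cf.nef X.o Y.o g p b5 hp Z.o k _ _
        (Eb.logCan_fin (X := Y.o) b1 b2 b3 Δ) (fun y => c7.2.1 y trivial) c8
        ((nefOver_iff _ _).1 v)), b8⟩⟩
  obtain ⟨_, _, ε', -, -, ε1, H⟩ := dw G d e q ε q0 ε0
  obtain ⟨Δ', c1, -, c3, -⟩ := H X Y Z g k ω η p B tt b6.2.2.1 a b2 b1 b b3 ft hp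
    ((pair_iff _ _ ω B).2 hB) int tr
  exact ⟨ε', Δ', ε1, (pair_iff _ _ η Δ').1 c1, c3⟩

theorem wrb9 : WRB := fun _ G =>
  ((germ G (S := fun e W w => LciqReg W w ∨ 3 ≤ e ∧ MildCover e (e - 3) W w)
    ((Pu.on.or on_cdv).mono fun _ _ _ _ _ _ _ u =>
      u.2.imp (fun v => ⟨u.1, v⟩) fun v => ⟨v.1, u.1, v.2⟩)).or onN_lci0).mono
    fun _ _ _ _ _ _ _ ⟨e, a, b, c, t, u⟩ => by
      rcases u with u | u
      · rcases u.elim with v | ⟨⟨rfl, v⟩, w⟩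
        · exact .inl ⟨e, a, b, c, t, .inl v⟩
        · exact .inr ⟨a, t, v, w⟩
      · exact .inl ⟨e, a, b, c, t, .inr u⟩

end Vale.Agent.P283R.Rs
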