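import Vale.Agent.P283R.Rs.St

/-!
# P283R, block RS: a class of morphisms over a germ
-/

open CategoryTheory AlgebraicGeometry

noncomputable section

namespace Vale.Agent.P283R.Rs

open Sl Sl.Var Vale.Agent.P287D

theorem W11.germ {T : ∀ (d : ℕ) (X Y : Var), (X.X ⟶ Y.X) → X.Form d → Prop} (G : Gw T)
    {S : ℕ → ∀ Z : Var, Pt Z.X → Prop}
    (h : On fun d _ Z f ω B z => Crepant f ω B z ∧ S d Z z) : OnN fun d X Z f ω B z =>
    ∃ e : ℕ, dimension Z.str = e ∧ 1 ≤ e ∧ T d X Z f ω ∧ TrivialOver f ω B ∧ S e Z z := by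
  intro d hd ε hε R hR
  have hq : 0 < ∏ a ∈ R, a.den := Finset.prod_pos fun a _ => a.den_pos
  choose q' M ε' a1 a2 a3 H using fun e => G d e _ ε hq hε
  choose n hn K using fun e =>
    h (e + 1) (Nat.le_add_left _ _) (ε' (e + 1)) (a3 _) _ (Dp.rng64 (a1 (e + 1)))
  have N0 : 0 < ∏ x ∈ Finset.range d, M (x + 1) * n x :=
    Finset.prod_pos fun x _ => Nat.mul_pos (a2 _) (hn _)
  refine ⟨_, N0, fun X Z f ω B z a b c i s t ⟨ft, _, e, b2, b1, tw, tr, u⟩ => ?_⟩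
  obtain ⟨e, rfl⟩ : ∃ k, e = k + 1 := ⟨e - 1, (Nat.sub_add_cancel b1).symm⟩
  obtain ⟨r, rfl⟩ := Nat.exists_eq_add_of_le (s.dim_le a b2)
  have := s.2.2.1
  obtain ⟨p, hp⟩ := Cf.Fto.exists_pe (X := X.o) (Y := Z.o) f
  obtain ⟨m, η, h1, b3⟩ := exists_form Z
  obtain rfl : e + 1 = m := Nat.cast_injective (b2.symm.trans h1)
  obtain ⟨Δ, c1, c2, -, c4⟩ := Dp.dwg64 hε (a1 _) (a2 _) (a3 _) X.o Z.o f p s hp (e + 1) ω η B b1 a
    b b3 ((pair_iff _ _ ω B).1 c) (fun E => by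
      by_cases z : B E = 0
      · exact ⟨0, (congrArg (_ * ·) z).trans (by simp)⟩
      · obtain ⟨k, hk⟩ := Br.den R (i E z) (hR _ (i E z)).1
        exact ⟨k, hk⟩) tr (P283M.Br.ffd Z.o _ b2)
    ((H (e + 1) X Z f ω tw).2 Z (𝟙 _) p inferInstance a b2 b1 b ((Category.comp_id f).symm ▸ ft) hp)
  have c1' := (pair_iff _ _ η Δ).2 c1
  have dv : M (e + 1) * n e ∣ ∏ x ∈ Finset.range (e + 1 + r), M (x + 1) * n x :=
    Finset.dvd_prod_of_mem (fun x => M (x + 1) * n x) (Finset.mem_range.2 (by omega))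
  have l : Pair (0 < ·) (all Z.X) η Δ :=
    ⟨c1'.1, c1'.2.1, fun W E k m φ m0 l => (a3 _).trans_le (c1'.2.2 W E k m φ m0 l)⟩
  have k := c4 Z.o (𝟙 _) z _ N0 ((dvd_mul_right _ _).trans dv)
    ((has_iff (𝟙 _) η Δ _ z).1 ((K e Z Z (𝟙 _) η Δ z b2 b3 c1' c2 (Br.ctr_id (X := Z.o)) t
      ⟨⟨⟨_, Br.pb_id (X := Z.o)⟩, Br.loc_id (X := Z.o) ((pair_iff _ _ η Δ).1 l) z⟩, u⟩).of_dvd
        ((dvd_mul_left _ _).trans dv)))
  rw [Category.comp_id] at k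
  exact (has_iff _ ω B _ z).2 k

/-- **WRB** -/
theorem wrb11 : WRB := fun _ G =>
  ((W11.germ G (S := fun e W w => LciqReg W w ∨ 3 ≤ e ∧ MildCover e (e - 3) W w)
    ((Pu.on.or on_cdv).mono fun _ _ _ _ _ _ _ u =>
      u.2.imp (fun v => ⟨u.1, v⟩) fun v => ⟨v.1, u.1, v.2⟩)).or onN_lci0).mono
    fun _ _ _ _ _ _ _ ⟨e, a, b, c, t, u⟩ => by
      rcases u with u | u
      · rcases u.elim with v | ⟨⟨rfl, v⟩, w⟩
        · exact .inl ⟨e, a, b, c, t, .inl v⟩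
        · exact .inr ⟨a, t, v, w⟩
      · exact .inl ⟨e, a, b, c, t, .inr u⟩

end Vale.Agent.P283R.Rs
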